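import Crest.Agent.N337.Geo.Shell

/-!
# Row 337, Geo (helper6), part 3: the scales; `geo : GeoStmt`
-/

set_option autoImplicit false

namespace Crest.Agent.N337.Geo

open Finset Free

/-- diameters -/
def Dd (t : ℕ) : ℕ → ℕ
  | 0 => 0
  | j + 1 => 7 * Dd t j + 2 * t + 1

theorem four_pow_le {t : ℕ} (ht : 1 ≤ t) (j : ℕ) : 4 ^ j ≤ Dd t j + 1 := by
  induction j with
  | zero => simp [Dd]
  | succ j ih =>
    rcases j with _ | j
    · simp only [Dd]; omega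
    · have : 1 ≤ Dd t (j + 1) := by simp only [Dd]; omega
      rw [pow_succ, Dd]; omega

theorem Dd_le {t : ℕ} (ht : 1 ≤ t) (j : ℕ) : 12 * (Dd t j + t) ≤ (12 * t) ^ (j + 1) := by
  induction j with
  | zero => simp [Dd]
  | succ j ih =>
    rw [pow_succ, Dd]
    calc _ ≤ 12 * (Dd t j + t) * 7 := by omega
      _ ≤ _ := Nat.mul_le_mul ih (by omega)

variable {d L : ℕ} [NeZero L]

/-- witnesses of level `j` -/
def WW (t : ℕ) : ℕ → Tor d L → Finset (Finset (Tor d L))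
  | 0, u => {{u}}
  | j + 1, u => (WW t j u).biUnion fun B =>
      (bl u (6 * Dd t j + 2 * t + 1) \ bl u (3 * Dd t j)).biUnion fun v => (WW t j v).image (B ∪ ·)

theorem mem_WW {t j : ℕ} {u : Tor d L} {A : Finset (Tor d L)} : A ∈ WW t (j + 1) u ↔
    ∃ B ∈ WW t j u, ∃ v, (tdist u v ≤ 6 * Dd t j + 2 * t + 1 ∧ 3 * Dd t j < tdist u v) ∧
      ∃ B' ∈ WW t j v, B ∪ B' = A := by
  simp [WW, mem_bl]

theorem WW_spec {t : ℕ} (ht : 1 ≤ t) (j : ℕ) : ∀ u : Tor d L, ∀ B ∈ WW t j u, B.card = 2 ^ j ∧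
    (∀ x ∈ B, tdist u x ≤ Dd t j) ∧
    ∀ x ∈ B, ∑ y ∈ B.erase x, 1 / (tdist x y : ℝ) ≤ 2 - 2 / 2 ^ j := by
  induction j with
  | zero => simp [WW, tdist_self]
  | succ j ih =>
    intro u A hA
    obtain ⟨B, hB, v, ⟨h1, h2⟩, B', hB', rfl⟩ := mem_WW.1 hA
    obtain ⟨a1, a2, a3⟩ := ih u B hB
    obtain ⟨b1, b2, b3⟩ := ih v B' hB'
    have far : ∀ x ∈ B, ∀ y ∈ B', 4 ^ j ≤ tdist x y := fun x hx y hy => by
      have := a2 x hx
      have := b2 y hy
      have := tdist_triangle u x v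
      have := tdist_triangle x y v
      have := tdist_comm y v
      have := four_pow_le ht j
      omega
    have dj : Disjoint B B' := disjoint_left.2 fun x hx hx' => by
      have := far x hx x hx'
      rw [tdist_self] at this
      exact absurd this (not_le.2 (by positivity))
    have key : ∀ {B B' : Finset (Tor d L)} {x}, Disjoint B B' → B'.card = 2 ^ j →
        (∀ y ∈ B', 4 ^ j ≤ tdist x y) → ∑ y ∈ B.erase x, 1 / (tdist x y : ℝ) ≤ 2 - 2 / 2 ^ j →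
        ∑ y ∈ (B ∪ B').erase x, 1 / (tdist x y : ℝ) ≤ 2 - 2 / 2 ^ (j + 1) := by
      intro B B' x dj hc hf h
      rw [erase_union_distrib, sum_union (dj.mono (erase_subset _ _) (erase_subset _ _))]
      have h3 := sum_le_card_nsmul (B'.erase x) (fun y => 1 / (tdist x y : ℝ)) (1 / 4 ^ j)
        fun y hy => one_div_le_one_div_of_le (by positivity)
          (by exact_mod_cast hf y (mem_of_mem_erase hy))
      have h4 : ((B'.erase x).card : ℝ) ≤ 2 ^ j := by exact_mod_cast hc ▸ card_erase_le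
      rw [nsmul_eq_mul] at h3
      have h5 : (2 : ℝ) ^ j * (1 / 4 ^ j) = 2 / 2 ^ j - 2 / 2 ^ (j + 1) := by
        rw [show (4 : ℝ) = 2 * 2 by norm_num, mul_pow, pow_succ]; field_simp; norm_num
      linarith [mul_le_mul_of_nonneg_right h4 (show (0 : ℝ) ≤ 1 / 4 ^ j by positivity)]
    refine ⟨by rw [card_union_of_disjoint dj, a1, b1]; ring, fun x hx => ?_, fun x hx => ?_⟩
    · rw [Dd]
      rcases mem_union.1 hx with h | h
      · have := a2 x h; omega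
      · have := b2 x h; have := tdist_triangle u v x; omega
    · rcases mem_union.1 hx with h | h
      · exact key dj b1 (far x h) (a3 x h)
      · exact union_comm B B' ▸ key dj.symm a1 (fun y hy => tdist_comm x y ▸ far y hy x h) (b3 x h)

theorem card_WW {t : ℕ} {c : ℝ} (hc : 1 ≤ c)
    (h : ∀ j, ((2 * (6 * Dd t j + 2 * t + 1) + 1 : ℕ) : ℝ) ^ d ≤ c ^ (j + 1)) (j : ℕ) :
    ∀ u : Tor d L, ((WW t j u).card : ℝ) ≤ (c ^ 2) ^ 2 ^ j / c ^ (j + 2) := by
  have hc0 : 0 < c := by linarith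
  induction j with
  | zero => intro u; simp [WW, hc0.ne']
  | succ j ih =>
    intro u
    have h1 : ∀ (s : Finset (Tor d L)) (B : Finset (Tor d L)),
        ((s.biUnion fun v => (WW t j v).image (B ∪ ·)).card : ℝ) ≤
          s.card * ((c ^ 2) ^ 2 ^ j / c ^ (j + 2)) := fun s B => by
      refine (Nat.cast_le.2 card_biUnion_le).trans ?_
      rw [Nat.cast_sum, ← nsmul_eq_mul]
      exact sum_le_card_nsmul _ _ _ fun v _ => (Nat.cast_le.2 card_image_le).trans (ih v)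
    refine (Nat.cast_le.2 card_biUnion_le).trans ?_
    rw [Nat.cast_sum]
    refine (sum_le_card_nsmul _ _ _ fun B _ => h1 _ B).trans ?_
    have h2 := ((Nat.cast_le.2 (card_le_card (sdiff_subset (t := bl u (3 * Dd t j))))).trans
      (card_bl u _)).trans (h j)
    rw [nsmul_eq_mul]
    calc _ ≤ (c ^ 2) ^ 2 ^ j / c ^ (j + 2) * (c ^ (j + 1) * ((c ^ 2) ^ 2 ^ j / c ^ (j + 2))) := by
          gcongr; exact ih u
      _ = _ := by rw [pow_succ 2 j, pow_mul _ _ 2]; field_simp; ring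

variable (t : ℕ) (R : Finset (Tor d L))

/-- points with a red witness of level `j` -/
def EE (j : ℕ) (u : Tor d L) : Prop := ∃ B ∈ WW t j u, B ⊆ R

/-- the invariant -/
structure Inv (J : Tor d L → Tor d L → ℝ) (K : ℝ) (jm : ℕ) (U Good : Finset (Tor d L))
    (w : Tor d L → ℝ) : Prop where
  st : St J R U Good w
  dj : Disjoint Good R
  cov : ∀ x ∉ Good, ∃ j ≤ jm, ∃ u, tdist x u ≤ 3 * Dd t j + t ∧ EE t R j u
  wt : ∀ x, w x = 1 ∨ ∃ j ≤ jm, w x ≤ K ^ 2 ^ j ∧ ∃ u, tdist x u ≤ 3 * Dd t j + t ∧ EE t R j u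

variable {t R}

theorem level {J : Tor d L → Tor d L → ℝ} (hs : ∀ x y, J x y = J y x) (h0 : ∀ x y, 0 ≤ J x y)
    (hJ : ∀ x y, J x y ≠ 0 → tdist x y ≤ t) {c C : ℝ} {jm j : ℕ} (hj : j ≤ jm) (hc : 1 ≤ c)
    (hC : 1 + C ≤ c ^ 2 ^ j) (hC' : ∀ u : Tor d L, ((bl u (3 * Dd t j)).card : ℝ) ≤ C)
    (H : ∀ u : Tor d L, ∃ r ∈ bl u (3 * Dd t j + t) \ bl u (3 * Dd t j), ∀ φ : Tor d L → ℝ,
      2 * ∑ x ∈ bl u (3 * Dd t j), ∑ y ∈ bl u (3 * Dd t j + t) \ bl u (3 * Dd t j),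
        J x y * (φ r - φ y) ^ 2 ≤ C * ∑ x ∈ bl u (3 * Dd t j + t) \ bl u (3 * Dd t j),
          ∑ y ∈ bl u (3 * Dd t j + t) \ bl u (3 * Dd t j), J x y * (φ x - φ y) ^ 2)
    (U : Finset (Tor d L)) : ∀ Good w, Inv t R J (c ^ 2) jm U Good w → (∀ u ∈ U, EE t R j u) →
      (∀ x, w x ≤ c ^ 2 ^ j ∨ (w x ≤ c ^ 2 ^ (j + 1) ∧ ∃ u, EE t R j u ∧ ¬ EE t R (j + 1) u ∧
        tdist u x ≤ 3 * Dd t j + t ∧ ∀ v ∈ U, 3 * Dd t j < tdist u v)) →
      ∃ U Good w, Inv t R J (c ^ 2) jm U Good w ∧ (∀ u ∈ U, EE t R (j + 1) u) ∧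
        ∀ x, w x ≤ c ^ 2 ^ (j + 1) := by
  have gap : ∀ u v, EE t R j u → ¬ EE t R (j + 1) u → EE t R j v → 3 * Dd t j < tdist u v →
      6 * Dd t j + 2 * t + 1 < tdist u v := fun u v ⟨B, hB, h1⟩ hu ⟨B', hB', h2⟩ h =>
    not_le.1 fun h' => hu ⟨_, mem_WW.2 ⟨B, hB, v, ⟨h', h⟩, B', hB', rfl⟩, union_subset h1 h2⟩
  have e2 : c ^ 2 ^ (j + 1) = c ^ 2 ^ j * c ^ 2 ^ j := by rw [pow_succ, pow_mul, sq]
  have h1 : 1 ≤ c ^ 2 ^ j := one_le_pow₀ hc
  induction U using Finset.strongInduction with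
  | H U ih =>
  intro Good w I hU hw
  by_cases hE : ∀ u ∈ U, EE t R (j + 1) u
  · exact ⟨U, Good, w, I, hE, fun x => (hw x).elim (fun h => h.trans (by nlinarith)) And.left⟩
  push Not at hE
  obtain ⟨u, hu, hE⟩ := hE
  obtain ⟨r, hr, H⟩ := H u
  have hQ : ∀ x ∈ bl u (3 * Dd t j) ∪ (bl u (3 * Dd t j + t) \ bl u (3 * Dd t j)),
      tdist u x ≤ 3 * Dd t j + t := fun x hx => by
    simp only [mem_union, mem_sdiff, mem_bl] at hx; omega
  have hst := I.st.fill hs h0 (W := c ^ 2 ^ j) (W' := c ^ 2 ^ (j + 1))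
    (fun x hx => (mem_sdiff.1 hx).2) (fun x hx hx' => by
      simp only [mem_sdiff, mem_bl, not_le] at hx
      have := gap u x (hU u hu) hE (hU x hx') hx.2
      omega) hr (fun x hx y hy h => by
      have := hJ x y h
      have := tdist_triangle u x y
      rw [mem_bl] at hx
      exact mem_sdiff.2 ⟨mem_bl.2 (by omega), hy⟩)
    (fun x hx => (hw x).resolve_right (by
      rintro ⟨-, v, v1, v2, v3, v4⟩
      have := gap v u v1 v2 (hU u hu) (v4 u hu)
      have := tdist_triangle v x u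
      have := tdist_comm x u
      have := mem_bl.1 (mem_sdiff.1 hx).1
      omega)) H (hC' u) (by rw [e2]; gcongr)
  refine ih _ ⟨sdiff_subset, fun h => (mem_sdiff.1 (h hu)).2
    (mem_bl.2 (by rw [tdist_self]; omega))⟩ _ _
    ⟨hst, I.dj.mono_left sdiff_subset, fun x hx => ?_, fun x => ?_⟩
    (fun v hv => hU v (mem_sdiff.1 hv).1) fun x => ?_
  · by_cases h : x ∈ Good
    · exact ⟨j, hj, u, tdist_comm u x ▸ hQ x (mem_union_left _ (by simpa [h] using hx)), hU u hu⟩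
    · exact I.cov x h
  · split_ifs with h
    · exact .inr ⟨j, hj, by rw [← pow_mul, ← pow_succ'], u, tdist_comm u x ▸ hQ x h, hU u hu⟩
    · exact I.wt x
  · split_ifs with h
    · exact .inr ⟨le_rfl, u, hU u hu, hE, hQ x h, fun v hv =>
        not_le.1 fun h => (mem_sdiff.1 hv).2 (mem_bl.2 h)⟩
    · exact (hw x).imp_right fun ⟨a, v, v1, v2, v3, v4⟩ =>
        ⟨a, v, v1, v2, v3, fun y hy => v4 y (mem_sdiff.1 hy).1⟩

end Crest.Agent.N337.Geo

namespace Crest.Agent.N337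

open Finset Free Geo

theorem geo : GeoStmt := by
  intro d J hd hJ
  obtain ⟨t, κ, ht, hκ, H⟩ := shell hd hJ
  obtain ⟨g, hg⟩ : ∃ g : ℝ, g = ((12 * t : ℕ) : ℝ) ^ d := ⟨_, rfl⟩
  have hg1 : 1 ≤ g := hg ▸ one_le_pow₀ (by exact_mod_cast (by omega : 1 ≤ 12 * t))
  obtain ⟨c, hc⟩ : ∃ c : ℝ, c = 2 * κ * g ^ 3 := ⟨_, rfl⟩
  have hg3 : g ≤ g ^ 3 := le_self_pow₀ hg1 (by norm_num)
  have hc2 : 2 ≤ c := by nlinarith
  have hgc : g ≤ c := by nlinarith
  have hc1 : 1 ≤ c := by linarith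
  have hM : ∀ j m : ℕ, m ≤ 12 * (Dd t j + t) → (m : ℝ) ^ d ≤ g ^ (j + 1) := fun j m h => by
    rw [hg, ← pow_mul, mul_comm d, pow_mul]
    gcongr
    exact_mod_cast h.trans (Dd_le ht j)
  have hP : ∀ j, c ^ (j + 1) ≤ c ^ 2 ^ j := fun j => pow_le_pow_right₀ hc1 Nat.lt_two_pow_self
  have hK : ∀ j, c ^ 2 ^ j ≤ (c ^ 2) ^ 2 ^ j := fun j => by gcongr; nlinarith
  refine ⟨c ^ 2, 0, by nlinarith, fun L _ _ => ?_⟩
  obtain ⟨hr, H⟩ := H L
  have hex : ∃ j, L ≤ 2 * (3 * Dd t j + t) := ⟨L, by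
    have := four_pow_le ht L
    have := Nat.lt_pow_self (n := L) (show 1 < 4 by norm_num)
    omega⟩
  refine ⟨Nat.find hex, WW t, fun j => 3 * Dd t j + t, ?_, fun j u => ?_, fun j _ => ?_,
    fun j u B hB => ?_, fun R => ?_⟩
  · rcases h : Nat.find hex with _ | k
    · exact NeZero.pos L
    · have := Nat.find_min hex (m := k) (by omega)
      have := four_pow_le ht k
      have : 2 ^ k ≤ 4 ^ k := Nat.pow_le_pow_left (by norm_num) k
      rw [pow_succ]; omega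
  · refine (card_WW hc1 (fun j => (hM j _ (by omega)).trans (by gcongr)) j u).trans ?_
    exact div_le_self (by positivity) (one_le_pow₀ hc1)
  · exact (hM j (2 * (3 * Dd t j + t) + 1) (by omega)).trans ((pow_le_pow_left₀ (by linarith) hgc _).trans
      ((hP j).trans (hK j)))
  · obtain ⟨h1, h2, h3⟩ := WW_spec ht j u B hB
    exact ⟨h1, fun x hx => (h2 x hx).trans (by dsimp only; omega), fun x hx => (h3 x hx).trans (by
      nlinarith [show (0 : ℝ) ≤ 2 / 2 ^ j by positivity])⟩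
  have main : ∀ j ≤ Nat.find hex, ∃ U Good w, Inv t R (torJ J L) (c ^ 2) (Nat.find hex) U Good w ∧
      (∀ u ∈ U, EE t R j u) ∧ ∀ x, w x ≤ c ^ 2 ^ j := by
    intro j hj
    induction j with
    | zero =>
      have e : ∀ u ∈ R, EE t R 0 u := fun u hu => ⟨{u}, by simp [WW], by simpa using hu⟩
      exact ⟨R, Rᶜ, 1, ⟨St.init _ _ _, disjoint_compl_left, fun x hx => ⟨0, hj, x,
        by rw [tdist_self]; exact Nat.zero_le _, e x (by simpa using hx)⟩, fun _ => .inl rfl⟩, e,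
        fun _ => by simpa using hc1⟩
    | succ j ih =>
      obtain ⟨U, Good, w, I, h1, h2⟩ := ih (by omega)
      have h3 := hM j (2 * (3 * Dd t j + t) + 1) (by omega)
      have h4 : (1 : ℝ) ≤ ((2 * (3 * Dd t j + t) + 1 : ℕ) : ℝ) ^ d :=
        one_le_pow₀ (by exact_mod_cast (by omega : 1 ≤ 2 * (3 * Dd t j + t) + 1))
      refine level (torJ_symm hJ) (torJ_nonneg hJ) hr (by omega) hc1 (le_trans ?_ (hP j))
        (fun u => (card_bl u _).trans ?_)
        (fun u => H u _ (not_le.1 (Nat.find_min hex (m := j) (by omega)))) U Good w I h1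
        fun x => .inl (h2 x)
      · have h5 : 1 ≤ κ * (g ^ (j + 1)) ^ 3 := one_le_mul_of_one_le_of_one_le hκ
          (one_le_pow₀ (one_le_pow₀ hg1))
        have h6 : 2 * κ ≤ (2 * κ) ^ (j + 1) := le_self_pow₀ (by linarith) (by omega)
        calc _ ≤ κ * (g ^ (j + 1)) ^ 3 + κ * (g ^ (j + 1)) ^ 3 := by gcongr
          _ = 2 * κ * (g ^ 3) ^ (j + 1) := by rw [← pow_mul, ← pow_mul, mul_comm 3]; ring
          _ ≤ _ := by rw [hc, mul_pow]; gcongr
      · refine le_trans (by gcongr; omega) ((le_self_pow₀ h4 (n := 3) (by norm_num)).trans ?_)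
        exact le_mul_of_one_le_left (by positivity) hκ
  have e1 : ∀ ψ, 1 / 2 * En (torJ J L) R 1 ψ = dir (torJ J L) R ψ := fun ψ => by
    simp only [En, dir, ← mem_compl, sum_ite2, Pi.one_apply, max_self, div_one]
  have e2 : ∀ ψ, Ms R 1 ψ = ∑ x ∈ Rᶜ, ψ x ^ 2 := fun ψ => by
    simp only [Ms, ← mem_compl, sum_ite_mem, univ_inter, Pi.one_apply, div_one]
  by_cases hE : ∃ u, EE t R (Nat.find hex) u
  · obtain ⟨u, hu⟩ := hE
    refine ⟨∅, 1, disjoint_empty_left _, fun x _ => ⟨_, le_rfl, u, ?_, hu⟩, fun _ => .inl rfl,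
      fun ψ _ => ⟨0, fun _ => le_rfl, by simp, ?_, ?_⟩⟩
    · have := tdist_le_half x u
      have := Nat.find_spec hex
      dsimp only
      omega
    · simpa [dir] using sum_nonneg fun x _ => sum_nonneg fun y _ =>
        mul_nonneg (torJ_nonneg hJ x y) (sq_nonneg (ψ x - ψ y))
    · simpa using sum_nonneg fun x _ => sq_nonneg (ψ x)
  · obtain ⟨U, Good, w, I, h1, -⟩ := main _ le_rfl
    obtain rfl : U = ∅ := eq_empty_of_forall_notMem fun u hu => hE ⟨u, h1 u hu⟩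
    refine ⟨Good, w, I.dj, I.cov, fun x => (I.wt x).imp_right fun h => ⟨I.st.1 x, h⟩,
      fun ψ hψ => ?_⟩
    obtain ⟨φ, p0, p1, p2, p3⟩ := I.st.2 ψ hψ
    refine ⟨φ, p0, p1, ?_, ?_⟩
    · rw [← e1]
      exact mul_le_mul_of_nonneg_left (by simpa [En] using p2) (by norm_num)
    · rw [← e2]
      simpa [Ms] using p3

end Crest.Agent.N337
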