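import Crest.Agent.N337.Defs

/-!
# Row 337, Geo (helper6), part 1: filling one cube; a Poincaré bound along chains
-/

set_option autoImplicit false

namespace Crest.Agent.N337.Geo

open Finset

variable {X : Type} [Fintype X] [DecidableEq X]

/-- weighted energy of the edges outside `U` -/
noncomputable def En (J : X → X → ℝ) (U : Finset X) (w φ : X → ℝ) : ℝ :=
  ∑ x, ∑ y, if x ∉ U ∧ y ∉ U then J x y * (φ x - φ y) ^ 2 / max (w x) (w y) else 0

/-- weighted mass outside `U` -/
noncomputable def Ms (U : Finset X) (w φ : X → ℝ) : ℝ := ∑ x, if x ∉ U then φ x ^ 2 / w x else 0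

/-- functions extend from `Rᶜ` to `Uᶜ` -/
def St (J : X → X → ℝ) (R U Good : Finset X) (w : X → ℝ) : Prop :=
  (∀ x, 1 ≤ w x) ∧ ∀ ψ : X → ℝ, (∀ x, 0 ≤ ψ x) → ∃ φ : X → ℝ, (∀ x, 0 ≤ φ x) ∧
    (∀ x ∈ Good, φ x = ψ x) ∧ En J U w φ ≤ En J R 1 ψ ∧ Ms U w φ ≤ Ms R 1 ψ

theorem St.init (J : X → X → ℝ) (R Good : Finset X) : St J R R Good 1 :=
  ⟨fun _ => le_rfl, fun ψ h => ⟨ψ, h, fun _ _ => rfl, le_rfl, le_rfl⟩⟩

theorem sum_ite2 (A B : Finset X) (f : X → X → ℝ) :
    ∑ x, ∑ y, (if x ∈ A ∧ y ∈ B then f x y else 0) = ∑ x ∈ A, ∑ y ∈ B, f x y := by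
  simp [ite_and, Finset.sum_ite_mem]

theorem St.fill {J : X → X → ℝ} (hs : ∀ x y, J x y = J y x) (h0 : ∀ x y, 0 ≤ J x y)
    {R U Good Q S : Finset X} {w : X → ℝ} (h : St J R U Good w) {r : X} {W W' C : ℝ}
    (hQ : ∀ x ∈ S, x ∉ Q) (hU : ∀ x ∈ S, x ∉ U) (hr : r ∈ S)
    (hJ : ∀ x ∈ Q, ∀ y ∉ Q, J x y ≠ 0 → y ∈ S) (hw : ∀ x ∈ S, w x ≤ W)
    (hP : ∀ φ : X → ℝ, 2 * ∑ x ∈ Q, ∑ y ∈ S, J x y * (φ r - φ y) ^ 2 ≤
      C * ∑ x ∈ S, ∑ y ∈ S, J x y * (φ x - φ y) ^ 2)
    (hC : (Q.card : ℝ) ≤ C) (hW : W * (1 + C) ≤ W') :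
    St J R (U \ Q) (Good \ Q) fun x => if x ∈ Q ∪ S then W' else w x := by
  have hw1 := h.1
  have hW1 : 1 ≤ W := (hw1 r).trans (hw r hr)
  have hC0 : 0 ≤ C := (Nat.cast_nonneg _).trans hC
  have hWW : W ≤ W' := by nlinarith
  have hW' : 0 < W' := by linarith
  have key : ∀ A : ℝ, 0 ≤ A → (1 + C) * A / W' ≤ A / W := fun A hA => by
    rw [div_le_div_iff₀ hW' (by linarith)]; nlinarith
  refine ⟨fun x => by dsimp only; split_ifs; exacts [hW1.trans hWW, hw1 x], fun ψ hψ => ?_⟩
  obtain ⟨φ, p0, p1, p2, p3⟩ := h.2 ψ hψ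
  refine ⟨fun x => if x ∈ Q then φ r else φ x, fun x => by dsimp only; split_ifs <;> exact p0 _,
    fun x hx => by rw [mem_sdiff] at hx; simp [hx.2, p1 x hx.1], le_trans ?_ p2, le_trans ?_ p3⟩
  · have nn : ∀ x y a b, 0 ≤ J x y * (φ a - φ b) ^ 2 := fun x y _ _ =>
      mul_nonneg (h0 x y) (sq_nonneg _)
    have mp : ∀ x y, 0 < max (w x) (w y) := fun x y => lt_max_of_lt_left (by linarith [hw1 x])
    have pt : ∀ x y, (if x ∉ U \ Q ∧ y ∉ U \ Q then J x y * ((if x ∈ Q then φ r else φ x) -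
        (if y ∈ Q then φ r else φ y)) ^ 2 / max (if x ∈ Q ∪ S then W' else w x)
          (if y ∈ Q ∪ S then W' else w y) else 0) +
        (if x ∈ S ∧ y ∈ S then J x y * (φ x - φ y) ^ 2 / W else 0) ≤
        (if x ∉ U ∧ y ∉ U then J x y * (φ x - φ y) ^ 2 / max (w x) (w y) else 0) +
        ((if x ∈ S ∧ y ∈ S then J x y * (φ x - φ y) ^ 2 / W' else 0) +
        ((if x ∈ Q ∧ y ∈ S then J x y * (φ r - φ y) ^ 2 / W' else 0) +
        (if x ∈ S ∧ y ∈ Q then J y x * (φ r - φ x) ^ 2 / W' else 0))) := by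
      intro x y
      have o0 : 0 ≤ if x ∉ U ∧ y ∉ U then J x y * (φ x - φ y) ^ 2 / max (w x) (w y) else 0 := by
        split_ifs; exacts [div_nonneg (nn _ _ _ _) (mp x y).le, le_rfl]
      by_cases hx : x ∈ Q <;> by_cases hy : y ∈ Q
      · simpa [hx, hy, mt (hQ x) (not_not.2 hx), mt (hQ y) (not_not.2 hy)] using o0
      · by_cases hy' : y ∈ S
        · simpa [hx, hy, hy', mt (hQ x) (not_not.2 hx), hU y hy'] using o0
        · simp [hy', by_contra fun h => hy' (hJ x hx y hy h), hy]
      · by_cases hx' : x ∈ S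
        · simpa [hx, hy, hx', mt (hQ y) (not_not.2 hy), hU x hx', hs x y, sub_sq_comm (φ x)]
            using o0
        · simp [hx', hs x y, by_contra fun h => hx' (hJ y hy x hx h), hx]
      · by_cases hxy : x ∈ S ∧ y ∈ S
        · simp only [hx, hy, hxy, hU x hxy.1, hU y hxy.2, mem_sdiff, mem_union, not_false_eq_true,
            and_true, and_self, if_true, if_false, or_true, max_self, and_false, add_zero]
          rw [add_comm]
          gcongr
          exacts [nn _ _ _ _, mp x y, max_le (hw x hxy.1) (hw y hxy.2)]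
        · simp only [hx, hy, hxy, mem_sdiff, mem_union, not_false_eq_true, and_true, if_false,
            false_and, and_false, add_zero, false_or]
          have : ∀ z, w z ≤ if z ∈ S then W' else w z := fun z => by
            split_ifs with h; exacts [(hw z h).trans hWW, le_rfl]
          by_cases hu : x ∉ U ∧ y ∉ U
          · rw [if_pos hu, if_pos hu]
            exact div_le_div_of_nonneg_left (nn _ _ _ _) (mp x y) (max_le_max (this x) (this y))
          · rw [if_neg hu, if_neg hu]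
    have := sum_le_sum fun x (_ : x ∈ univ) => sum_le_sum fun y (_ : y ∈ univ) => pt x y
    simp only [sum_add_distrib, sum_ite2, ← sum_div] at this
    rw [sum_comm (s := S) (t := Q)] at this
    have h1 := key _ (sum_nonneg fun x (_ : x ∈ S) => sum_nonneg fun y (_ : y ∈ S) => nn x y x y)
    have h2 := div_le_div_of_nonneg_right (hP φ) hW'.le
    rw [add_mul, add_div, one_mul] at h1
    rw [two_mul, add_div] at h2
    unfold En
    linarith
  · have pt : ∀ x, (if x ∉ U \ Q then (if x ∈ Q then φ r else φ x) ^ 2 /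
        (if x ∈ Q ∪ S then W' else w x) else 0) + (if x = r then φ r ^ 2 / W else 0) ≤
        (if x ∉ U then φ x ^ 2 / w x else 0) + ((if x = r then φ r ^ 2 / W' else 0) +
          if x ∈ Q then φ r ^ 2 / W' else 0) := by
      intro x
      have hx0 : 0 < w x := by linarith [hw1 x]
      by_cases hx : x ∈ Q
      · have : x ≠ r := fun e => hQ r hr (e ▸ hx)
        simp only [hx, this, mem_sdiff, mem_union, true_or, if_true, if_false, not_true, and_false,
          not_false_eq_true, add_zero, zero_add, le_add_iff_nonneg_left]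
        positivity
      · by_cases e : x = r
        · subst e
          simp only [hx, hr, hU x hr, mem_sdiff, mem_union, or_true, if_true, if_false, false_and,
            not_false_eq_true, add_zero]
          rw [add_comm]
          gcongr
          exact hw x hr
        · simp only [hx, e, mem_sdiff, mem_union, false_or, if_false, not_false_eq_true, and_true,
            add_zero]
          split_ifs with h1 h2
          · exact le_rfl
          · gcongr; exact (hw x h2).trans hWW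
          · exact le_rfl
    have := sum_le_sum fun x (_ : x ∈ univ) => pt x
    simp only [sum_add_distrib, sum_ite_eq', mem_univ, if_true, sum_ite_mem, univ_inter, sum_const,
      nsmul_eq_mul] at this
    have h1 := key _ (sq_nonneg (φ r))
    have h2 := mul_le_mul_of_nonneg_right hC (div_nonneg (sq_nonneg (φ r)) hW'.le)
    rw [add_mul, add_div, one_mul, mul_div_assoc] at h1
    unfold Ms
    linarith

omit [Fintype X] in
/-- the oscillation along a chain inside `S` -/
theorem chain_le {S : Finset X} {r : X → X → Prop} {φ : X → ℝ} {ε : ℝ} (hε : 0 ≤ ε)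
    (h : ∀ x ∈ S, ∀ y ∈ S, r x y → |φ x - φ y| ≤ ε) {p q : X} (hq : q ∈ S)
    (hc : Relation.ReflTransGen (fun x y => x ∈ S ∧ y ∈ S ∧ r x y) p q) :
    |φ p - φ q| ≤ S.card * ε := by
  let G := SimpleGraph.fromRel fun x y => x ∈ S ∧ y ∈ S ∧ r x y
  have h1 : G.Reachable p q := by
    clear hq
    induction hc with
    | refl => rfl
    | @tail b c _ h ih =>
      by_cases e : b = c
      · exact e ▸ ih
      · exact ih.trans (SimpleGraph.Adj.reachable ⟨e, .inl h⟩)
  have h2 : ∀ {p q} (c : G.Walk p q), q ∈ S →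
      |φ p - φ q| ≤ c.length * ε ∧ ∀ v ∈ c.support, v ∈ S := by
    intro p q c hq
    induction c with
    | nil => simpa using hq
    | @cons a b _ hab c ih =>
      obtain ⟨h3, h4⟩ := ih hq
      have h5 : a ∈ S ∧ |φ a - φ b| ≤ ε := hab.2.elim (fun e => ⟨e.1, h a e.1 b e.2.1 e.2.2⟩)
        fun e => ⟨e.2.1, abs_sub_comm (φ b) _ ▸ h b e.1 a e.2.1 e.2.2⟩
      refine ⟨(abs_sub_le _ (φ b) _).trans ?_, by simpa using ⟨h5.1, h4⟩⟩
      rw [SimpleGraph.Walk.length_cons]
      push_cast
      linarith [h5.2]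
  obtain ⟨c, hc⟩ := h1.exists_isPath
  refine (h2 c hq).1.trans (mul_le_mul_of_nonneg_right (Nat.cast_le.2 ?_) hε)
  have := card_le_card (show c.support.toFinset ⊆ S from fun v hv =>
    (h2 c hq).2 v (by simpa using hv))
  rw [List.toFinset_card_of_nodup hc.support_nodup, SimpleGraph.Walk.length_support] at this
  omega

end Crest.Agent.N337.Geo
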