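import Crest.Agent.N337.Geo.Fill
import Crest.Agent.N337.Free.Tor

/-!
# Row 337, Geo (helper6), part 2: shells of cubes are connected; the shell inequality
-/

set_option autoImplicit false

namespace Crest.Agent.N337.Geo

open Finset Relation Free

variable {d : ℕ} {J : (Fin d → ℤ) → ℝ}

/-- chains of the coupling inside `A` -/
def Con (J : (Fin d → ℤ) → ℝ) (A : Set (Fin d → ℤ)) : (Fin d → ℤ) → (Fin d → ℤ) → Prop :=
  ReflTransGen fun x y => x ∈ A ∧ y ∈ A ∧ J (y - x) ≠ 0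

/-- cube -/
def Cb (d t : ℕ) : Set (Fin d → ℤ) := {y | ∀ i, (y i).natAbs ≤ t}

/-- shell -/
def Sh (d a b : ℕ) : Set (Fin d → ℤ) := {y | y ∈ Cb d b ∧ ∃ i, a < (y i).natAbs}

theorem exists_cb (y : Fin d → ℤ) : ∃ t, y ∈ Cb d t :=
  ⟨univ.sup fun i => (y i).natAbs, fun i => le_sup (f := fun i => (y i).natAbs) (mem_univ i)⟩

theorem Cb.mono {s t : ℕ} (h : s ≤ t) : Cb d s ⊆ Cb d t := fun _ hy i => (hy i).trans h

theorem Con.mono {A B : Set (Fin d → ℤ)} (h : A ⊆ B) {x y : Fin d → ℤ} (c : Con J A x y) :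
    Con J B x y := by
  induction c with
  | refl => exact .refl
  | tail _ e ih => exact ih.tail ⟨h e.1, h e.2.1, e.2.2⟩

theorem exists_word (hJ : Coup J) (z : Fin d → ℤ) : ∃ t, Con J (Cb d t) 0 z := by
  have key : ∀ x y : Fin d → ℤ, J x ≠ 0 → (∃ t, Con J (Cb d t) 0 y) →
      ∃ t, Con J (Cb d t) 0 (x + y) := by
    rintro x y hx ⟨t, h⟩
    obtain ⟨a, ha⟩ := exists_cb y
    obtain ⟨b, hb⟩ := exists_cb (x + y)
    exact ⟨t + a + b, (h.mono (Cb.mono (by omega))).tail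
      ⟨Cb.mono (by omega) ha, Cb.mono (by omega) hb, by simpa using hx⟩⟩
  have hz : z ∈ AddSubgroup.closure (Function.support J) := hJ.gen ▸ AddSubgroup.mem_top z
  induction hz using AddSubgroup.closure_induction_left with
  | zero => exact ⟨0, .refl⟩
  | add_left x hx y _ h => exact key x y hx h
  | neg_add_cancel x hx y _ h => exact key (-x) y (by rwa [hJ.symm]) h

theorem exists_words (hJ : Coup J) : ∃ t, ∀ i, Con J (Cb d t) 0 (Pi.single i 1) := by
  choose t ht using fun i : Fin d => exists_word hJ (Pi.single i 1)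
  exact ⟨univ.sup t, fun i => (ht i).mono (Cb.mono (le_sup (mem_univ i)))⟩

theorem exists_step (hJ : Coup J) (c : Fin d) : ∃ z, J z ≠ 0 ∧ 0 < z c := by
  obtain ⟨t, h⟩ := exists_word hJ (Pi.single c 1)
  by_contra hc
  push Not at hc
  have : ∀ y, Con J (Cb d t) 0 y → y c ≤ 0 := fun y h => by
    induction h with
    | refl => exact le_rfl
    | tail _ h ih => have := hc _ h.2.2; simp only [Pi.sub_apply] at this; omega
  simpa using this _ h

theorem core (hd : 2 ≤ d) {t a m : ℕ} (ht : ∀ i, Con J (Cb d t) 0 (Pi.single i 1))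
    (n : ℕ) : ∀ y ∈ Sh d (a + t) m, ∑ i, (m - y i).toNat ≤ n →
      Con J (Sh d a (m + t)) y fun _ => m := by
  induction n with
  | zero =>
    intro y hy h
    have : y = fun _ => (m : ℤ) := funext fun i => by
      have := (single_le_sum (f := fun i => (m - y i).toNat) (fun _ _ => Nat.zero_le _)
        (mem_univ i)).trans h
      have := hy.1 i
      omega
    exact this ▸ .refl
  | succ n ih =>
    rintro y ⟨hy, c, hc⟩ h
    have step : ∀ i c, i ≠ c → y i < m → a + t < (y c).natAbs →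
        Con J (Sh d a (m + t)) y fun _ => m := fun i c hic hi hc => by
      refine ReflTransGen.trans (b := y + Pi.single i 1) ?_ (ih _ ⟨fun j => ?_, c, ?_⟩ ?_)
      · have e : ∀ v ∈ Cb d t, y + v ∈ Sh d a (m + t) := fun v hv =>
          ⟨fun j => by have := hy j; have := hv j; simp only [Pi.add_apply]; omega, c,
            by have := hv c; simp only [Pi.add_apply]; omega⟩
        simpa [Function.onFun, Con] using (ht i).lift (p := fun x y => x ∈ Sh d a (m + t) ∧ y ∈ Sh d a (m + t) ∧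
          J (y - x) ≠ 0) (y + ·) fun u v h => ⟨e u h.1, e v h.2.1, by simpa using h.2.2⟩
      · have := hy j
        rcases eq_or_ne j i with rfl | hj
        · simp only [Pi.add_apply, Pi.single_eq_same]; omega
        · simpa [hj] using this
      · simpa [hic.symm] using hc
      · refine Nat.le_of_lt_succ (lt_of_lt_of_le (sum_lt_sum (fun j _ => ?_) ⟨i, mem_univ i, ?_⟩) h)
        · rcases eq_or_ne j i with rfl | hj
          · simp only [Pi.add_apply, Pi.single_eq_same]; omega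
          · simp [hj]
        · simp only [Pi.add_apply, Pi.single_eq_same]; omega
    by_cases h1 : ∃ i, i ≠ c ∧ y i < m
    · obtain ⟨i, h1, h2⟩ := h1
      exact step i c h1 h2 hc
    push Not at h1
    have : Nontrivial (Fin d) := Fin.nontrivial_iff_two_le.2 hd
    obtain ⟨c', hc'⟩ := exists_ne c
    have h2 := hy c
    by_cases h3 : y c < m
    · exact step c c' hc'.symm h3 (by have := h1 c' hc'; omega)
    · have : y = fun _ => (m : ℤ) := funext fun i => by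
        have := hy i
        rcases eq_or_ne i c with rfl | hi
        · omega
        · have := h1 i hi; omega
      exact this ▸ .refl

theorem out (hJ : Coup J) {ρ a b : ℕ} (hρ : ∀ z, J z ≠ 0 → z ∈ Cb d ρ) {y : Fin d → ℤ}
    (hy : y ∈ Sh d a (a + ρ)) (k : ℕ) (hb : a + ρ * (k + 1) ≤ b) :
    ∃ y' ∈ Sh d (a + k) (a + ρ * (k + 1)), Con J (Sh d a b) y y' := by
  induction k with
  | zero => exact ⟨y, by simpa using hy, .refl⟩
  | succ k ih =>
    rw [mul_add_one ρ (k + 1)] at hb ⊢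
    obtain ⟨y', ⟨h1, c, h2⟩, h3⟩ := ih (by omega)
    obtain ⟨z, hz, h4⟩ : ∃ z, J z ≠ 0 ∧ (y' c).natAbs < (y' c + z c).natAbs := by
      obtain ⟨z, hz, h4⟩ := exists_step hJ c
      rcases le_total 0 (y' c) with h | h
      · exact ⟨z, hz, by omega⟩
      · exact ⟨-z, by rwa [hJ.symm], by simp only [Pi.neg_apply]; omega⟩
    have h5 : y' + z ∈ Cb d (a + (ρ * (k + 1) + ρ)) := fun i => by
      have := h1 i; have := hρ z hz i; simp only [Pi.add_apply]; omega
    exact ⟨y' + z, ⟨h5, c, by simp only [Pi.add_apply]; omega⟩, h3.tail ⟨⟨Cb.mono (by omega) h1, c,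
      by omega⟩, ⟨Cb.mono hb h5, c, by simp only [Pi.add_apply]; omega⟩, by simpa using hz⟩⟩

theorem exists_shell (hd : 2 ≤ d) (hJ : Coup J) : ∃ ρ t : ℕ, 1 ≤ t ∧ ρ ≤ t ∧
    (∀ z, J z ≠ 0 → z ∈ Cb d ρ) ∧ ∀ a, ∃ r ∈ Sh d a (a + t), ∀ y ∈ Sh d a (a + ρ),
      Con J (Sh d a (a + t)) y r := by
  obtain ⟨t, ht⟩ := exists_words hJ
  choose f hf using exists_cb (d := d)
  have hρ : ∀ z, J z ≠ 0 → z ∈ Cb d ((sp hJ).sup f) := fun z hz =>
    Cb.mono (le_sup ((mem_sp hJ).2 hz)) (hf z)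
  generalize (sp hJ).sup f = ρ at hρ
  refine ⟨ρ, ρ * (t + 1) + 1 + t, by omega, by nlinarith, hρ, fun a =>
    ⟨fun _ => (a + (ρ * (t + 1) + 1) : ℕ), ⟨fun _ => by dsimp only; omega, ⟨0, by omega⟩, by dsimp only; omega⟩,
      fun y hy => ?_⟩⟩
  obtain ⟨y', h1, h2⟩ := out hJ hρ hy t (b := a + (ρ * (t + 1) + 1 + t)) (by omega)
  exact h2.trans (add_assoc a _ t ▸ core hd ht _ y' ⟨Cb.mono (by omega) h1.1, h1.2⟩ le_rfl)

variable {L : ℕ} [NeZero L]

/-- balls of the torus -/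
def bl (u : Tor d L) (a : ℕ) : Finset (Tor d L) := univ.filter fun y => tdist u y ≤ a

theorem mem_bl {u y : Tor d L} {a : ℕ} : y ∈ bl u a ↔ tdist u y ≤ a := by simp [bl]

theorem card_bl (u : Tor d L) (a : ℕ) : ((bl u a).card : ℝ) ≤ ((2 * a + 1 : ℕ) : ℝ) ^ d := by
  exact_mod_cast card_ball_le u a

theorem range_le (hJ : Coup J) {ρ : ℕ} (hρ : ∀ z, J z ≠ 0 → z ∈ Cb d ρ) {x y : Tor d L}
    (h : torJ J L x y ≠ 0) : tdist x y ≤ ρ := by
  rw [torJ_eq hJ] at h
  obtain ⟨z, -, hz⟩ := exists_ne_zero_of_sum_ne_zero h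
  simp only [ne_eq, ite_eq_right_iff, not_forall] at hz
  obtain ⟨h1, h2⟩ := hz
  refine tdist_le_iff.2 fun i => le_trans (ZMod.natAbs_min_of_le_div_two L _ (z i) ?_
    (ZMod.natAbs_valMinAbs_le _)) (hρ z h2 i)
  rw [ZMod.coe_valMinAbs]
  exact (congrFun h1 i).symm

theorem shell (hd : 2 ≤ d) (hJ : Coup J) : ∃ (t : ℕ) (κ : ℝ), 1 ≤ t ∧ 1 ≤ κ ∧
    ∀ (L : ℕ) [NeZero L], (∀ x y : Tor d L, torJ J L x y ≠ 0 → tdist x y ≤ t) ∧
    ∀ (u : Tor d L) (a : ℕ), 2 * (a + t) < L → ∃ r ∈ bl u (a + t) \ bl u a, ∀ φ : Tor d L → ℝ,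
      2 * ∑ x ∈ bl u a, ∑ y ∈ bl u (a + t) \ bl u a, torJ J L x y * (φ r - φ y) ^ 2 ≤
        κ * (((2 * (a + t) + 1 : ℕ) : ℝ) ^ d) ^ 3 * ∑ x ∈ bl u (a + t) \ bl u a,
          ∑ y ∈ bl u (a + t) \ bl u a, torJ J L x y * (φ x - φ y) ^ 2 := by
  obtain ⟨ρ, t, h1, h2, hρ, H⟩ := exists_shell hd hJ
  obtain ⟨z, hz, -⟩ := exists_step hJ ⟨0, by omega⟩
  obtain ⟨z0, hz0, hmin⟩ := exists_min_image (sp hJ) J ⟨z, (mem_sp hJ).2 hz⟩
  have hδ : 0 < J z0 := (hJ.nonneg _).lt_of_ne' ((mem_sp hJ).1 hz0)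
  have hT : 0 ≤ ∑ z ∈ sp hJ, J z := sum_nonneg fun z _ => hJ.nonneg z
  refine ⟨t, 1 + 2 * (∑ z ∈ sp hJ, J z) / J z0, h1, le_add_of_nonneg_right (by positivity),
    fun L _ => ⟨fun x y h => (range_le hJ hρ h).trans h2, fun u a hL => ?_⟩⟩
  obtain ⟨r, hr, H⟩ := H a
  set S := bl u (a + t) \ bl u a with hS
  have hm : ∀ y ∈ Sh d a (a + t), u + tcast L y ∈ S := fun y hy => by
    have e : ∀ i, ((u + tcast L y) i - u i).valMinAbs = y i := fun i =>
      (ZMod.valMinAbs_spec _ _).2 ⟨by simp [tcast], by have := hy.1 i; constructor <;> omega⟩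
    obtain ⟨h3, i, h4⟩ := hy
    simp only [hS, mem_sdiff, mem_bl, tdist_le_iff, e, not_forall, not_le]
    exact ⟨h3, i, h4⟩
  refine ⟨_, hm r hr, fun φ => ?_⟩
  set Z := ∑ x ∈ S, ∑ y ∈ S, torJ J L x y * (φ x - φ y) ^ 2 with hZ
  set M : ℝ := ((2 * (a + t) + 1 : ℕ) : ℝ) ^ d with hM
  have nn : ∀ x y, 0 ≤ torJ J L x y * (φ x - φ y) ^ 2 := fun x y =>
    mul_nonneg (torJ_nonneg hJ x y) (sq_nonneg _)
  have hZ0 : 0 ≤ Z := sum_nonneg fun x _ => sum_nonneg fun y _ => nn x y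
  have c1 : (S.card : ℝ) ≤ M := (Nat.cast_le.2 (card_le_card sdiff_subset)).trans (card_bl _ _)
  have c2 : ((bl u a).card : ℝ) ≤ M := (card_bl _ _).trans (by rw [hM]; gcongr; omega)
  have osc : ∀ y ∈ S, tdist u y ≤ a + ρ → (φ (u + tcast L r) - φ y) ^ 2 ≤ M ^ 2 * (Z / J z0) := by
    intro y hy h3
    have e : u + tcast L (fun i => (y i - u i).valMinAbs) = y := funext fun i => by simp [tcast]
    have h4 : (fun i => (y i - u i).valMinAbs) ∈ Sh d a (a + ρ) := ⟨tdist_le_iff.1 h3, by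
      simpa [mem_bl, tdist_le_iff] using (mem_sdiff.1 hy).2⟩
    have h5 := chain_le (S := S) (r := fun x y => J z0 ≤ torJ J L x y) (φ := φ)
      (Real.sqrt_nonneg (Z / J z0)) (fun x hx y hy h => Real.abs_le_sqrt (by
        rw [le_div_iff₀ hδ, mul_comm]
        exact (mul_le_mul_of_nonneg_right h (sq_nonneg _)).trans
          ((single_le_sum (fun y _ => nn x y) hy).trans
            (single_le_sum (fun x _ => sum_nonneg fun y _ => nn x y) hx))))
      (hm r hr) ((H _ h4).lift (fun v => u + tcast L v) fun v v' h => ⟨hm v h.1, hm v' h.2.1, by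
        change J z0 ≤ torJ J L (u + tcast L v) (u + tcast L v')
        rw [torJ_eq hJ]
        refine (hmin _ ((mem_sp hJ).2 h.2.2)).trans (le_trans (le_of_eq (if_pos ?_).symm)
          (single_le_sum (f := fun z => if tcast L z = u + tcast L v' - (u + tcast L v) then J z
            else 0) (fun z _ => by split_ifs; exacts [hJ.nonneg z, le_rfl])
            ((mem_sp hJ).2 h.2.2)))
        funext i; simp [tcast]⟩)
    dsimp only at h5
    rw [e, abs_sub_comm] at h5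
    rw [← sq_abs, ← Real.sq_sqrt (div_nonneg hZ0 hδ.le), ← mul_pow]
    gcongr
    exact h5.trans (by gcongr)
  have h3 : ∀ x ∈ bl u a, ∑ y ∈ S, torJ J L x y * (φ (u + tcast L r) - φ y) ^ 2 ≤
      (∑ z ∈ sp hJ, J z) * (M ^ 2 * (Z / J z0)) := fun x hx => by
    rw [sum_mul, ← sum_torJ_real hJ x fun _ => M ^ 2 * (Z / J z0)]
    refine (sum_le_sum fun y hy => ?_).trans (sum_le_univ_sum_of_nonneg fun y =>
      mul_nonneg (torJ_nonneg hJ x y) (by positivity))
    by_cases h : torJ J L x y = 0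
    · simp [h]
    · exact mul_le_mul_of_nonneg_left (osc y hy ((tdist_triangle u x y).trans
        (add_le_add (mem_bl.1 hx) (range_le hJ hρ h)))) (torJ_nonneg hJ x y)
  have h4 := sum_le_card_nsmul _ _ _ h3
  rw [nsmul_eq_mul] at h4
  have h5 := mul_le_mul_of_nonneg_right c2
    (show 0 ≤ (∑ z ∈ sp hJ, J z) * (M ^ 2 * (Z / J z0)) by positivity)
  have h6 : 0 ≤ M ^ 3 * Z := by positivity
  calc _ ≤ 2 * (M * ((∑ z ∈ sp hJ, J z) * (M ^ 2 * (Z / J z0)))) + M ^ 3 * Z := by linarith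
    _ = _ := by ring

end Crest.Agent.N337.Geo
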